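import Vale.Agent.Lib.P090.helper89.Uniform

namespace Vale.Agent.Results.P090.UniformConstant

open Vale.Agent.Lib.P090.H89

universe u

/-- Uniform form of the bounded approximation problem for Lipschitz-free spaces over uniformly
discrete metric spaces.  `FreeBAP lam M o` says that the Lipschitz-free space `F(M)` of the
metric space `M` with base point `o` has the `lam`-bounded approximation property; here `F(M)`
is `free M o`, the closed linear span of the evaluation functionals in the dual of `Lip0 M o`,
the space of Lipschitz functions vanishing at `o` normed by the Lipschitz constant.

The free space of every uniformly discrete metric space (with any base point) has the bounded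
approximation property if and only if there is one constant `lam ≥ 1` such that the free space
of every uniformly discrete metric space has the `lam`-bounded approximation property.
Metric spaces range over one universe of types. -/
theorem result :
    (∀ (M : Type u) [MetricSpace M] (o : M), UniformlyDiscrete M →
      ∃ lam : ℝ, 1 ≤ lam ∧ FreeBAP lam M o) ↔
    (∃ lam : ℝ, 1 ≤ lam ∧ ∀ (M : Type u) [MetricSpace M] (o : M), UniformlyDiscrete M →
      FreeBAP lam M o) :=
  Vale.Agent.Lib.P090.H89.uniform_iff

end Vale.Agent.Results.P090.UniformConstant
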